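import Mathlib
import Vale.Agent.Lib.P249.helper52.Sampling

/-!
# P249, pool job INC-A: finite case of the incompressible-families theorem

`incomp_fin`: `n` points of `ℓ_p^m` whose coordinates are dominated by a fixed vector `M` with
`∑ M_k ^ p ≤ K ^ p` can be mapped to `ℓ_p^d`, `d ≤ 128 (2K)^(2p) log n / ε² + 1`, so that all
`p`-th powers of distances change by at most `ε` (additively).  One application of the
importance-sampling lemma `sampling` with shifted weights.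
-/

namespace Vale.Agent.Lib.P249.H72

open Finset

/-- The number of ordered pairs `j < i` below `n`, doubled, plus one, is at most `n ^ 2`. -/
theorem incomp_card_pairs_le (n : ℕ) (hn : 1 ≤ n) :
    2 * (Fintype.card ((i : Fin n) × Fin (i : ℕ)) : ℝ) + 1 ≤ (n : ℝ) ^ 2 := by
  have h1 : Fintype.card ((i : Fin n) × Fin (i : ℕ)) = ∑ i : Fin n, (i : ℕ) := by
    rw [Fintype.card_sigma]
    simp
  have h2 : (∑ i : Fin n, (i : ℕ)) * 2 = n * (n - 1) := by
    rw [Fin.sum_univ_eq_sum_range (fun i => i) n, Finset.sum_range_id_mul_two]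
  have h3 : 2 * Fintype.card ((i : Fin n) × Fin (i : ℕ)) + 1 ≤ n ^ 2 := by
    rw [h1, mul_comm, h2]
    obtain ⟨k, rfl⟩ : ∃ k, n = k + 1 := ⟨n - 1, by omega⟩
    simp only [Nat.add_sub_cancel]
    nlinarith
  exact_mod_cast h3

/-- A sum over the coordinates with `M k ≠ 0` equals the full sum when the dropped terms vanish. -/
theorem incomp_sum_support {m : ℕ} (M : Fin m → ℝ) (g : Fin m → ℝ)
    (hg : ∀ k, M k = 0 → g k = 0) :
    ∑ k : {k : Fin m // M k ≠ 0}, g k.1 = ∑ k, g k := by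
  classical
  rw [← Finset.sum_subtype (Finset.univ.filter fun k => M k ≠ 0) (by simp) g]
  apply Finset.sum_subset (Finset.filter_subset _ _)
  intro k _ hk
  simp only [Finset.mem_filter, Finset.mem_univ, true_and, not_not] at hk
  exact hg k hk

theorem incomp_fin (p : ℝ) (hp : 1 ≤ p) (m n : ℕ) (hn : 2 ≤ n) (x : Fin n → Fin m → ℝ)
    (M : Fin m → ℝ) (hM : ∀ i k, |x i k| ≤ M k) (K : ℝ) (hK0 : 0 ≤ K)
    (hK : ∑ k, M k ^ p ≤ K ^ p) (ε : ℝ) (hε : 0 < ε) (hεK : ε < (2 * K) ^ p) :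
    ∃ (d : ℕ) (y : Fin n → Fin d → ℝ),
      (d : ℝ) ≤ 128 * (2 * K) ^ (2 * p) * Real.log n / ε ^ 2 + 1 ∧
      ∀ i j, |∑ l, |y i l - y j l| ^ p - ∑ k, |x i k - x j k| ^ p| ≤ ε := by
  classical
  have hp0 : 0 < p := by linarith
  have hpne : p ≠ 0 := hp0.ne'
  have hM0 : ∀ k, 0 ≤ M k := fun k => le_trans (abs_nonneg _) (hM ⟨0, by omega⟩ k)
  have hMp0 : ∀ k, 0 ≤ M k ^ p := fun k => Real.rpow_nonneg (hM0 k) p
  have h2p : (0 : ℝ) ≤ 2 ^ p := Real.rpow_nonneg (by norm_num) p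
  obtain ⟨S0, hS0⟩ : ∃ S0 : ℝ, S0 = ∑ k, M k ^ p := ⟨_, rfl⟩
  rw [← hS0] at hK
  have hS0nn : 0 ≤ S0 := by
    rw [hS0]
    exact Finset.sum_nonneg fun k _ => hMp0 k
  obtain ⟨A, hA⟩ : ∃ A : ℝ, A = (2 * K) ^ p := ⟨_, rfl⟩
  rw [← hA] at hεK
  have hApos : 0 < A := lt_trans hε hεK
  have hA2 : (2 * K) ^ (2 * p) = A ^ 2 := by
    rw [mul_comm 2 p, Real.rpow_mul (mul_nonneg (by norm_num) hK0), ← hA, Real.rpow_two]
  rw [hA2]
  have hlogn : 0 < Real.log n := Real.log_pos (by exact_mod_cast hn)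
  have hT : 0 < 128 * A ^ 2 * Real.log n / ε ^ 2 :=
    div_pos (mul_pos (mul_pos (by norm_num) (pow_pos hApos 2)) hlogn) (pow_pos hε 2)
  have hS0A : 2 ^ p * S0 ≤ A := by
    rw [hA, Real.mul_rpow (by norm_num) hK0]
    exact mul_le_mul_of_nonneg_left hK h2p
  have hdiff : ∀ i j k, |x i k - x j k| ^ p ≤ 2 ^ p * M k ^ p := by
    intro i j k
    rw [← Real.mul_rpow (by norm_num) (hM0 k)]
    exact Real.rpow_le_rpow (abs_nonneg _)
      (by linarith [abs_sub (x i k) (x j k), hM i k, hM j k]) hp0.le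
  have hVnn : ∀ i j, 0 ≤ ∑ k, |x i k - x j k| ^ p := fun i j =>
    Finset.sum_nonneg fun k _ => Real.rpow_nonneg (abs_nonneg _) p
  have hV : ∀ i j, ∑ k, |x i k - x j k| ^ p ≤ 2 ^ p * S0 := by
    intro i j
    rw [hS0, Finset.mul_sum]
    exact Finset.sum_le_sum fun k _ => hdiff i j k
  rcases eq_or_lt_of_le hS0nn with hz | hpos
  · -- all coordinates vanish
    refine ⟨0, fun _ _ => 0, ?_, ?_⟩
    · rw [Nat.cast_zero]
      linarith
    · intro i j
      have hVz : ∑ k, |x i k - x j k| ^ p = 0 := by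
        refine le_antisymm ?_ (hVnn i j)
        have := hV i j
        rw [← hz, mul_zero] at this
        exact this
      rw [hVz, Finset.univ_eq_empty, Finset.sum_empty, sub_zero, abs_zero]
      exact hε.le
  · -- the main case
    have hMpos : ∀ k : {k : Fin m // M k ≠ 0}, 0 < M k.1 ^ p := fun k =>
      Real.rpow_pos_of_pos (lt_of_le_of_ne (hM0 k.1) (Ne.symm k.2)) p
    have hSK : ∑ k : {k : Fin m // M k ≠ 0}, M k.1 ^ p = S0 := by
      rw [hS0]
      exact incomp_sum_support M (fun k => M k ^ p) (fun k hk => by rw [hk, Real.zero_rpow hpne])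
    have hxz : ∀ i k, M k = 0 → x i k = 0 := by
      intro i k hk
      have := hM i k
      rw [hk] at this
      exact abs_eq_zero.mp (le_antisymm this (abs_nonneg _))
    have hVK : ∀ i j, ∑ k : {k : Fin m // M k ≠ 0}, |x i k.1 - x j k.1| ^ p
        = ∑ k, |x i k - x j k| ^ p := by
      intro i j
      exact incomp_sum_support M (fun k => |x i k - x j k| ^ p) (fun k hk => by
        rw [hxz i k hk, hxz j k hk, sub_zero, abs_zero, Real.zero_rpow hpne])
    -- the data for the sampling lemma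
    obtain ⟨c, hc⟩ : ∃ c : ((i : Fin n) × Fin (i : ℕ)) → Fin n,
        ∀ f, (c f : ℕ) = (f.2 : ℕ) :=
      ⟨fun f => ⟨f.2.val, lt_trans f.2.is_lt f.1.is_lt⟩, fun f => rfl⟩
    obtain ⟨w, hw⟩ : ∃ w : {k : Fin m // M k ≠ 0} → ((i : Fin n) × Fin (i : ℕ)) → ℝ,
        ∀ k f, w k f = |x f.1 k.1 - x (c f) k.1| ^ p + 2 ^ p * M k.1 ^ p := ⟨_, fun _ _ => rfl⟩
    obtain ⟨s, hs⟩ : ∃ s : {k : Fin m // M k ≠ 0} → ℝ, ∀ k, s k = 2 * M k.1 ^ p / S0 :=
      ⟨_, fun _ => rfl⟩
    obtain ⟨v, hv⟩ : ∃ v : ((i : Fin n) × Fin (i : ℕ)) → ℝ, ∀ f, v f = ∑ k, w k f :=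
      ⟨_, fun _ => rfl⟩
    have hvf : ∀ f, v f = ∑ k, |x f.1 k - x (c f) k| ^ p + 2 ^ p * S0 := by
      intro f
      rw [hv f]
      simp only [hw]
      rw [Finset.sum_add_distrib, ← Finset.mul_sum, hSK, hVK]
    have hw0 : ∀ k f, 0 ≤ w k f := by
      intro k f
      rw [hw]
      exact add_nonneg (Real.rpow_nonneg (abs_nonneg _) p) (mul_nonneg h2p (hMp0 k.1))
    have hs0 : ∀ k, 0 ≤ s k := by
      intro k
      rw [hs]
      exact div_nonneg (mul_nonneg (by norm_num) (hMp0 k.1)) hS0nn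
    have hsw : ∀ k f, w k f ≤ s k * v f := by
      intro k f
      have h1 : w k f ≤ 2 * (2 ^ p * M k.1 ^ p) := by
        rw [hw]
        linarith [hdiff f.1 (c f) k.1]
      have h2 : 2 ^ p * S0 ≤ v f := by
        rw [hvf f]
        linarith [hVnn f.1 (c f)]
      have h3 : s k * (2 ^ p * S0) = 2 * (2 ^ p * M k.1 ^ p) := by
        rw [hs]
        field_simp
      calc w k f ≤ 2 * (2 ^ p * M k.1 ^ p) := h1
        _ = s k * (2 ^ p * S0) := h3.symm
        _ ≤ s k * v f := mul_le_mul_of_nonneg_left h2 (hs0 k)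
    have hS : (2 : ℝ) = ∑ k, s k := by
      simp only [hs]
      rw [← Finset.sum_div, ← Finset.mul_sum, hSK]
      field_simp
    obtain ⟨δ, hδ⟩ : ∃ δ : ℝ, δ = ε / (2 * A) := ⟨_, rfl⟩
    have hδpos : 0 < δ := by
      rw [hδ]
      exact div_pos hε (mul_pos (by norm_num) hApos)
    have hδ1 : δ ≤ 1 := by
      rw [hδ, div_le_one (mul_pos (by norm_num) hApos)]
      linarith
    have hδA : δ * (2 * A) = ε := by
      rw [hδ]
      field_simp
    obtain ⟨d, hd⟩ : ∃ d : ℕ, d = Nat.ceil (128 * A ^ 2 * Real.log n / ε ^ 2) := ⟨_, rfl⟩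
    have hdge : 128 * A ^ 2 * Real.log n / ε ^ 2 ≤ d := by
      rw [hd]
      exact Nat.le_ceil _
    have hdle : (d : ℝ) ≤ 128 * A ^ 2 * Real.log n / ε ^ 2 + 1 := by
      rw [hd]
      exact (Nat.ceil_lt_add_one hT.le).le
    have hdpos : (0 : ℝ) < d := lt_of_lt_of_le hT hdge
    have hdd : 8 * 2 * Real.log (2 * (Fintype.card ((i : Fin n) × Fin (i : ℕ)) : ℝ) + 1)
        ≤ δ ^ 2 * d := by
      have hcard := incomp_card_pairs_le n (by omega)
      have hlog : Real.log (2 * (Fintype.card ((i : Fin n) × Fin (i : ℕ)) : ℝ) + 1)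
          ≤ 2 * Real.log n := by
        have h1 := Real.log_le_log (by positivity) hcard
        rw [Real.log_pow] at h1
        exact_mod_cast h1
      have h1 : δ ^ 2 * (128 * A ^ 2 * Real.log n / ε ^ 2) = 32 * Real.log n := by
        rw [hδ]
        field_simp
        ring
      have h2 : δ ^ 2 * (128 * A ^ 2 * Real.log n / ε ^ 2) ≤ δ ^ 2 * d :=
        mul_le_mul_of_nonneg_left hdge (by positivity)
      linarith
    obtain ⟨κ, hκ⟩ := sampling w s v 2 hw0 hv hs0 hsw hS (by norm_num) δ hδpos hδ1 d hdd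
    obtain ⟨ρ, hρ⟩ : ∃ ρ : Fin d → ℝ, ∀ l, ρ l = S0 / ((d : ℝ) * M (κ l).1 ^ p) :=
      ⟨_, fun _ => rfl⟩
    have hρ0 : ∀ l, 0 ≤ ρ l := by
      intro l
      rw [hρ]
      exact div_nonneg hS0nn (mul_nonneg hdpos.le (hMp0 _))
    have hρs : ∀ l, (2 : ℝ) / ((d : ℝ) * s (κ l)) = ρ l := by
      intro l
      rw [hρ, hs]
      have := (hMpos (κ l)).ne'
      have := hdpos.ne'
      have := hpos.ne'
      field_simp
    have hy : ∀ i j l, |x i (κ l).1 * ρ l ^ (1 / p) - x j (κ l).1 * ρ l ^ (1 / p)| ^ p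
        = |x i (κ l).1 - x j (κ l).1| ^ p * ρ l := by
      intro i j l
      rw [← sub_mul, abs_mul, abs_of_nonneg (Real.rpow_nonneg (hρ0 l) _),
        Real.mul_rpow (abs_nonneg _) (Real.rpow_nonneg (hρ0 l) _), ← Real.rpow_mul (hρ0 l),
        one_div, inv_mul_cancel₀ hpne, Real.rpow_one]
    have key : ∀ f : (i : Fin n) × Fin (i : ℕ),
        |∑ l, |x f.1 (κ l).1 * ρ l ^ (1 / p) - x (c f) (κ l).1 * ρ l ^ (1 / p)| ^ p
          - ∑ k, |x f.1 k - x (c f) k| ^ p| ≤ ε := by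
      intro f
      obtain ⟨h1, h2⟩ := hκ f
      have hterm : ∀ l, w (κ l) f * (2 / ((d : ℝ) * s (κ l)))
          = |x f.1 (κ l).1 * ρ l ^ (1 / p) - x (c f) (κ l).1 * ρ l ^ (1 / p)| ^ p
            + 2 ^ p * S0 / d := by
        intro l
        rw [hρs l, hy, hw, add_mul]
        congr 1
        rw [hρ]
        have := (hMpos (κ l)).ne'
        have := hdpos.ne'
        field_simp
      have hsum : ∑ l, w (κ l) f * (2 / ((d : ℝ) * s (κ l)))
          = ∑ l, |x f.1 (κ l).1 * ρ l ^ (1 / p) - x (c f) (κ l).1 * ρ l ^ (1 / p)| ^ p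
            + 2 ^ p * S0 := by
        rw [Finset.sum_congr rfl (fun l _ => hterm l), Finset.sum_add_distrib, Finset.sum_const,
          Finset.card_univ, Fintype.card_fin, nsmul_eq_mul]
        congr 1
        have := hdpos.ne'
        field_simp
      rw [hsum, hvf f] at h1 h2
      have hb : δ * (∑ k, |x f.1 k - x (c f) k| ^ p + 2 ^ p * S0) ≤ ε := by
        rw [← hδA]
        exact mul_le_mul_of_nonneg_left (by linarith [hV f.1 (c f)]) hδpos.le
      rw [abs_le]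
      constructor <;> linarith
    refine ⟨d, fun i l => x i (κ l).1 * ρ l ^ (1 / p), hdle, ?_⟩
    intro i j
    show |∑ l, |x i (κ l).1 * ρ l ^ (1 / p) - x j (κ l).1 * ρ l ^ (1 / p)| ^ p
      - ∑ k, |x i k - x j k| ^ p| ≤ ε
    rcases lt_trichotomy j i with hji | hji | hji
    · have hcf : c ⟨i, ⟨j.1, hji⟩⟩ = j := Fin.ext (hc _)
      have := key ⟨i, ⟨j.1, hji⟩⟩
      rw [hcf] at this
      exact this
    · subst hji
      simp only [sub_self, abs_zero, Real.zero_rpow hpne, Finset.sum_const_zero]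
      exact hε.le
    · have hcf : c ⟨j, ⟨i.1, hji⟩⟩ = i := Fin.ext (hc _)
      have := key ⟨j, ⟨i.1, hji⟩⟩
      rw [hcf] at this
      have e1 : ∀ l, |x i (κ l).1 * ρ l ^ (1 / p) - x j (κ l).1 * ρ l ^ (1 / p)|
          = |x j (κ l).1 * ρ l ^ (1 / p) - x i (κ l).1 * ρ l ^ (1 / p)| := fun l => abs_sub_comm _ _
      have e2 : ∀ k, |x i k - x j k| = |x j k - x i k| := fun k => abs_sub_comm _ _
      simp only [e1, e2]
      exact this

end Vale.Agent.Lib.P249.H72
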