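import Vale.Agent.Lib.P249.helper62.GridDefs

/-!
# P249 grid lower bound, job GRID-B (helper72): the multiplicative discrete Prekopa-Leindler
inequality with defect one, derived from the level form

`PLLevel` is the statement of the level form (job GRID-A, `pl_level`); `pl_sq_of_level` derives
the multiplicative form from it by normalising the two maxima and AM-GM.
-/

namespace Vale.Agent.Lib.P249.H72

open Finset
open scoped Pointwise

/-- The statement of the level form of the discrete Prekopa-Leindler inequality on `ℕ`. -/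
def PLLevel : Prop :=
  ∀ (A B : Finset ℕ) (F G H : ℕ → ℝ) (m : ℝ),
    (∀ x ∈ A, 0 ≤ F x) → (∀ y ∈ B, 0 ≤ G y) →
    (∀ x ∈ A, F x ≤ m) → (∀ y ∈ B, G y ≤ m) →
    (∃ x ∈ A, F x = m) → (∃ y ∈ B, G y = m) →
    (∀ x ∈ A, ∀ y ∈ B, min (F x) (G y) ≤ H (x + y)) →
    ∑ x ∈ A, F x + ∑ y ∈ B, G y - m ≤ ∑ z ∈ A + B, H z

/-- Multiplicative discrete Prekopa-Leindler inequality with defect one, from the level form. -/
theorem pl_sq_of_level (hlevel : PLLevel) (A B : Finset ℕ) (F G H : ℕ → ℝ)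
    (hF0 : ∀ x ∈ A, 0 ≤ F x) (hG0 : ∀ y ∈ B, 0 ≤ G y) (hH0 : ∀ z, 0 ≤ H z)
    (hH : ∀ x ∈ A, ∀ y ∈ B, F x * G y ≤ H (x + y) ^ 2)
    (h1 : ∀ x ∈ A, ∀ y ∈ B, F x * G y ≤ 1) :
    4 * ((∑ x ∈ A, F x) * (∑ y ∈ B, G y)) ≤ (∑ z ∈ A + B, H z + 1) ^ 2 := by
  have hSF : 0 ≤ ∑ x ∈ A, F x := Finset.sum_nonneg hF0
  have hSG : 0 ≤ ∑ y ∈ B, G y := Finset.sum_nonneg hG0
  have hSH : 0 ≤ ∑ z ∈ A + B, H z := Finset.sum_nonneg (fun z _ => hH0 z)
  rcases hSF.eq_or_lt with h0 | hFpos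
  · rw [← h0, zero_mul, mul_zero]
    exact sq_nonneg _
  rcases hSG.eq_or_lt with h0 | hGpos
  · rw [← h0, mul_zero, mul_zero]
    exact sq_nonneg _
  have hAne : A.Nonempty := by
    by_contra hA
    rw [Finset.not_nonempty_iff_eq_empty] at hA
    rw [hA, Finset.sum_empty] at hFpos
    exact lt_irrefl _ hFpos
  have hBne : B.Nonempty := by
    by_contra hB
    rw [Finset.not_nonempty_iff_eq_empty] at hB
    rw [hB, Finset.sum_empty] at hGpos
    exact lt_irrefl _ hGpos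
  obtain ⟨x1, hx1, hmaxF⟩ := Finset.exists_max_image A F hAne
  obtain ⟨y1, hy1, hmaxG⟩ := Finset.exists_max_image B G hBne
  have hmF : 0 < F x1 := by
    by_contra hcon
    have hle : F x1 ≤ 0 := not_lt.mp hcon
    have : ∑ x ∈ A, F x ≤ 0 := Finset.sum_nonpos (fun x hx => le_trans (hmaxF x hx) hle)
    linarith
  have hmG : 0 < G y1 := by
    by_contra hcon
    have hle : G y1 ≤ 0 := not_lt.mp hcon
    have : ∑ y ∈ B, G y ≤ 0 := Finset.sum_nonpos (fun y hy => le_trans (hmaxG y hy) hle)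
    linarith
  have hprod : F x1 * G y1 ≤ 1 := h1 x1 hx1 y1 hy1
  have hprodpos : 0 < F x1 * G y1 := mul_pos hmF hmG
  obtain ⟨r, hrdef⟩ : ∃ r : ℝ, r = Real.sqrt (F x1 * G y1) := ⟨_, rfl⟩
  have hr : 0 < r := by
    rw [hrdef]
    exact Real.sqrt_pos.mpr hprodpos
  have hr1 : r ≤ 1 := by
    rw [hrdef]
    calc Real.sqrt (F x1 * G y1) ≤ Real.sqrt 1 := Real.sqrt_le_sqrt hprod
      _ = 1 := Real.sqrt_one
  have hr2 : r ^ 2 = F x1 * G y1 := by
    rw [hrdef]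
    exact Real.sq_sqrt hprodpos.le
  have hmin : ∀ x ∈ A, ∀ y ∈ B, min (F x / F x1) (G y / G y1) ≤ H (x + y) / r := by
    intro x hx y hy
    have hu : 0 ≤ F x / F x1 := div_nonneg (hF0 x hx) hmF.le
    have hv : 0 ≤ G y / G y1 := div_nonneg (hG0 y hy) hmG.le
    rw [le_div_iff₀ hr]
    have hm0 : 0 ≤ min (F x / F x1) (G y / G y1) := le_min hu hv
    have h3 : min (F x / F x1) (G y / G y1) ^ 2 ≤ (F x / F x1) * (G y / G y1) := by
      rcases le_total (F x / F x1) (G y / G y1) with h | h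
      · rw [min_eq_left h]
        nlinarith
      · rw [min_eq_right h]
        nlinarith
    have h4 : (F x / F x1) * (G y / G y1) * r ^ 2 = F x * G y := by
      rw [hr2]
      field_simp
    have h2 : (min (F x / F x1) (G y / G y1) * r) ^ 2 ≤ H (x + y) ^ 2 := by
      calc (min (F x / F x1) (G y / G y1) * r) ^ 2
          = min (F x / F x1) (G y / G y1) ^ 2 * r ^ 2 := by ring
        _ ≤ (F x / F x1) * (G y / G y1) * r ^ 2 :=
            mul_le_mul_of_nonneg_right h3 (sq_nonneg r)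
        _ = F x * G y := h4
        _ ≤ H (x + y) ^ 2 := hH x hx y hy
    exact le_of_sq_le_sq h2 (hH0 _)
  have key := hlevel A B (fun x => F x / F x1) (fun y => G y / G y1) (fun z => H z / r) 1
    (fun x hx => div_nonneg (hF0 x hx) hmF.le) (fun y hy => div_nonneg (hG0 y hy) hmG.le)
    (fun x hx => (div_le_one hmF).mpr (hmaxF x hx))
    (fun y hy => (div_le_one hmG).mpr (hmaxG y hy))
    ⟨x1, hx1, div_self hmF.ne'⟩ ⟨y1, hy1, div_self hmG.ne'⟩ hmin
  rw [← Finset.sum_div, ← Finset.sum_div, ← Finset.sum_div] at key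
  obtain ⟨SF, hSFdef⟩ : ∃ s : ℝ, s = ∑ x ∈ A, F x := ⟨_, rfl⟩
  obtain ⟨SG, hSGdef⟩ : ∃ s : ℝ, s = ∑ y ∈ B, G y := ⟨_, rfl⟩
  obtain ⟨S, hSdef⟩ : ∃ s : ℝ, s = ∑ z ∈ A + B, H z := ⟨_, rfl⟩
  rw [← hSFdef, ← hSGdef, ← hSdef] at key ⊢
  rw [← hSFdef] at hSF
  rw [← hSGdef] at hSG
  rw [← hSdef] at hSH
  have hu0 : 0 ≤ SF / F x1 := div_nonneg hSF hmF.le
  have hw0 : 0 ≤ SG / G y1 := div_nonneg hSG hmG.le
  have e1 : r * (SF / F x1 + SG / G y1) ≤ S + 1 := by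
    have h5 := mul_le_mul_of_nonneg_left key hr.le
    have hrS : r * (S / r) = S := by
      field_simp
    rw [hrS] at h5
    nlinarith
  have e2 : 4 * (SF * SG) = 4 * (SF / F x1) * (SG / G y1) * r ^ 2 := by
    rw [hr2]
    field_simp
  have e3 : 0 ≤ r * (SF / F x1 + SG / G y1) := mul_nonneg hr.le (add_nonneg hu0 hw0)
  calc 4 * (SF * SG) = 4 * (SF / F x1) * (SG / G y1) * r ^ 2 := e2
    _ ≤ (r * (SF / F x1 + SG / G y1)) ^ 2 := by
        nlinarith [sq_nonneg (SF / F x1 - SG / G y1), sq_nonneg r,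
          mul_nonneg (sq_nonneg (SF / F x1 - SG / G y1)) (sq_nonneg r)]
    _ ≤ (S + 1) ^ 2 := pow_le_pow_left₀ e3 e1 2

end Vale.Agent.Lib.P249.H72
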