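import Vale.Agent.Lib.P249.helper62.GridDefs
import Vale.Agent.Lib.P249.helper91.PLLevel
import Vale.Agent.Lib.P249.helper72.PLSqOf

/-!
# P249 grid lower bound, job GRID-B (helper72): `pl_sq`

The multiplicative discrete Prekopa-Leindler inequality on `ℕ` with defect one, in the exact
form of the skeleton of helper62, from `pl_level` (helper91) and `pl_sq_of_level`.
-/

namespace Vale.Agent.Lib.P249.H72

open Finset
open scoped Pointwise
open Vale.Agent.Lib.P249.H62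

/-- The level form holds (`pl_level` of helper91). -/
theorem plLevel_holds : PLLevel := fun A B F G H m h1 h2 h3 h4 h5 h6 h7 =>
  Vale.Agent.Lib.P249.H91.pl_level A B F G H m h1 h2 h3 h4 h5 h6 h7

/-- J-B: discrete Prekopa-Leindler, multiplicative form with defect 1. -/
theorem pl_sq (A B : Finset ℕ) (F G H : ℕ → ℝ)
    (hF0 : ∀ x ∈ A, 0 ≤ F x) (hG0 : ∀ y ∈ B, 0 ≤ G y) (hH0 : ∀ z, 0 ≤ H z)
    (hH : ∀ x ∈ A, ∀ y ∈ B, F x * G y ≤ H (x + y) ^ 2)
    (h1 : ∀ x ∈ A, ∀ y ∈ B, F x * G y ≤ 1) :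
    4 * ((∑ x ∈ A, F x) * (∑ y ∈ B, G y)) ≤ (∑ z ∈ A + B, H z + 1) ^ 2 :=
  pl_sq_of_level plLevel_holds A B F G H hF0 hG0 hH0 hH h1

end Vale.Agent.Lib.P249.H72
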